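import Vale.Agent.Lib.P154.SF.Prog

/-! Generated certificates. -/

namespace Vale.Agent.Lib.P154

namespace SF

open Tr in
theorem tc96 : chk TKAu gsA (s0 (s1 (s0 (s1 (s0 (s1 l l) (s1 (s0 l l) (s0 l l))) (s0 l (s1 (s0 l l) l))) (s1 (s0 (s1 (s0 l l) (s0 l l)) (s1 (s0 l l) (s0 l l))) (s0 (s1 (s0 l l) (s0 l l)) (s1 (s0 l l) (s0 l l))))) (s0 (s1 (s0 l l) (s0 l l)) (s1 (s0 (s1 l l) (s1 l l)) (s0 l l)))) (s1 (s0 (s1 (s0 (s1 (s0 l l) (s0 l l)) (d 1)) (s0 (s1 (s0 l l) l) (d 1))) (d 1)) (s0 (s1 (s0 (s1 l l) (d 1)) (s0 l (d 1))) (d 1))))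
    (Bx.mk 281474989293568 12582912 281475123511296 12582912 281474976710656 0 281474976710656 0) = true := by
  decide +kernel

open Tr in
theorem tc97 : chk TKAu gsA (s0 (s1 (s0 (s1 (s0 l l) (s0 l l)) (s1 (s0 l l) (s0 l l))) (s0 (s1 (s0 l l) (s0 l l)) (s1 (s0 l l) (s0 l l)))) (s1 (s0 (s1 (s0 l (d 1)) (s0 l (d 1))) (d 1)) (s0 (s1 (s0 l (d 1)) (s0 l (d 1))) (d 1))))
    (Bx.mk 281474989293568 12582912 281475148677120 12582912 281474976710656 0 281474976710656 0) = true := by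
  decide +kernel

open Tr in
theorem tc98 : chk TKAu gsA (s1 (s0 (s1 (s0 (s1 (s0 l l) (s0 l l)) (s1 (s0 l l) (s0 l l))) (s0 (s1 (s0 l l) (s0 l l)) (s1 (s0 l l) (s0 l l)))) (s1 (s0 (s1 (s0 l (d 1)) (s0 l (d 1))) (d 1)) (s0 (s1 (s0 l (d 1)) (s0 l (d 1))) (d 1)))) (s0 (s1 (s0 (s1 (s0 l l) l) (s1 (s0 l l) l)) (s0 (s1 l l) (s1 l l))) (s1 (s0 (s1 (s0 l (d 1)) (s0 l (d 1))) (d 1)) (s0 (s1 (s0 l (d 1)) l) (d 1)))))
    (Bx.mk 281474989293568 12582912 281475186425856 25165824 281474976710656 0 281474976710656 0) = true := by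
  decide +kernel

open Tr in
theorem tc99 : chk TKAu gsA (s1 (s1 (s0 (s1 (s0 (s1 l l) (s1 l l)) (s0 (s1 l l) (s1 l l))) (s1 (s0 (s1 l l) (d 1)) (s0 (s1 l l) (d 1)))) (s0 (s1 (s0 l (s1 l l)) (s0 l (s1 l l))) (s1 (s0 (s1 l (s0 l (d 1))) (d 1)) (s0 (s1 (s0 l (d 1)) (s0 l (d 1))) (d 1))))) (s1 (s0 (s1 (s0 l (s1 l l)) (s0 l (s1 l l))) (s1 (s0 (s1 (s0 l (d 1)) (s0 l (d 1))) (d 1)) (s0 (s1 (s0 l (d 1)) (s0 l (d 1))) (d 1)))) (s0 (s1 (s0 l (s1 l l)) (s0 l (s1 l l))) (s1 (s0 (s1 (s0 l (d 1)) (s0 l (d 1))) (d 1)) (s0 (s1 (s0 l (d 1)) (s0 l (d 1))) (d 1))))))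
    (Bx.mk 281474989293568 12582912 281475261923328 50331648 281474976710656 0 281474976710656 0) = true := by
  decide +kernel

open Tr in
theorem tc100 : chk TKAu gsA (s1 (s0 (s1 (s0 (s1 l l) (s1 l (s0 l l))) (s0 (s1 l l) (s1 (s0 l l) (s0 l l)))) (s1 (s0 (s1 (s0 l (d 1)) (s0 l (d 1))) (d 1)) (s0 (s1 (s0 l (d 1)) (s0 l (d 1))) (d 1)))) (s0 (s1 (s0 (s1 l l) (s1 (s0 l l) (s0 l l))) (s0 (s1 l l) (s1 (s0 l l) (s0 l l)))) (s1 (s0 (s1 (s0 l (d 1)) (s0 l (d 1))) (d 1)) (s0 (s1 (s0 l (d 1)) (s0 l (d 1))) (d 1)))))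
    (Bx.mk 281474989293568 12582912 281475337420800 25165824 281474976710656 0 281474976710656 0) = true := by
  decide +kernel

open Tr in
theorem tc101 : chk TKAu gsA (s1 (s0 (s1 (s0 (s1 l l) (s1 (s0 l l) (s0 l l))) (s0 (s1 l l) (s1 (s0 l l) (s0 l l)))) (s1 (s0 (s1 (s0 l (d 1)) (s0 l (d 1))) (d 0)) (s0 (s1 (s0 l (d 1)) (s0 l (d 1))) (d 0)))) (s0 (s1 (s0 (s1 l l) (s1 (s0 l l) (s0 l l))) (s0 (s1 l l) (s1 (s0 l l) (s0 l l)))) (s1 (s0 (s1 (s0 l (d 1)) (s0 l (d 1))) (d 0)) (s0 (s1 (s0 l (d 1)) (s0 l (d 1))) (d 0)))))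
    (Bx.mk 281474989293568 12582912 281475387752448 25165824 281474976710656 0 281474976710656 0) = true := by
  decide +kernel

end SF

end Vale.Agent.Lib.P154
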