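import Vale.Agent.Lib.P154.SF.Prog

/-! Generated certificates. -/

namespace Vale.Agent.Lib.P154

namespace SF

open Tr in
theorem tc151 : chk TKCP [] (s1 (s0 (s1 (s0 (s1 l l) (s1 l l)) (s0 (s1 (s0 (s1 l (s0 (s1 l l) (s1 l l))) (s1 l (s0 l l))) (s0 (s1 (s0 (s1 l l) (s1 l l)) l) (s1 (s0 (s1 l l) l) l))) (s1 (s0 (s1 l l) (s1 l l)) (s0 (s1 l l) (s1 l l))))) (s1 (s0 (s1 l l) (s1 l l)) (s0 (s1 (s0 (s1 l l) (s1 l l)) (s0 (s1 l l) (s1 l l))) (s1 (s0 (s1 l l) (s1 l l)) (s0 (s1 l l) (s1 l l)))))) (s0 (s1 (s0 (s1 l l) (s1 l l)) l) (s1 (s0 (s1 l l) (s1 l l)) l)))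
    (Bx.mk 281474979315712 2605056 281475216572416 4456448 281474976710656 0 281474976710656 0) = true := by
  decide +kernel

open Tr in
theorem tc152 : chk TKCP [] (s1 (s0 (s1 (s0 (s1 l l) (s1 l l)) (s0 (s1 (s0 (s1 l l) (s1 l l)) (s0 (s1 l l) (s1 l l))) (s1 l (s0 l l)))) (s1 (s0 (s1 l l) (s1 l l)) (s0 (s1 l l) (s1 l l)))) (s0 (s1 (s0 (s1 l l) l) l) (s1 l l)))
    (Bx.mk 281474984525824 2605056 281475216572416 4456448 281474976710656 0 281474976710656 0) = true := by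
  decide +kernel

open Tr in
theorem tc153 : chk TKCP [] (s0 (s1 (s0 (s1 (s0 (s1 l l) (s1 l l)) (s0 (s1 l l) (s1 l l))) (s1 (s0 (s1 l l) (s1 l l)) (s0 (s1 l l) (s1 l l)))) (s0 (s1 l l) (s1 l l))) (s1 (s0 (s1 (s0 (s1 l l) (s1 l l)) (s0 (s1 l l) (s1 l l))) (s1 (s0 (s1 l l) (s1 l l)) (s0 (s1 l l) (s1 l l)))) (s0 (s1 l l) (s1 l l))))
    (Bx.mk 281474992340992 5210112 281475216572416 4456448 281474976710656 0 281474976710656 0) = true := by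
  decide +kernel

open Tr in
theorem tc154 : chk TKCP [] (s0 (s1 (s0 (s1 (s0 (s1 l l) (s1 l l)) (s0 (s1 l l) (s1 l l))) (s1 (s0 (s1 l l) (s1 l l)) (s0 (s1 l l) (s1 l l)))) (s0 (s1 l l) (s1 l l))) (s1 (s0 (s1 (s0 (s1 l l) (s1 l l)) (s0 (s1 l l) (s1 l l))) (s1 (s0 (s1 l l) (s1 l l)) (s0 (s1 l l) (s1 l l)))) (s0 (s1 l l) (s1 l l))))
    (Bx.mk 281475002761216 5210112 281475216572416 4456448 281474976710656 0 281474976710656 0) = true := by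
  decide +kernel

open Tr in
theorem tc155 : chk TKCP [] (s0 (s1 (s0 (s1 (s0 (s1 l l) (s1 l l)) (s0 (s1 l l) (s1 l l))) (s1 (s0 (s1 l l) (s1 l l)) (s0 (s1 l l) (s1 l l)))) (s0 (s1 l l) (s1 l l))) (s1 (s0 (s1 (s0 (s1 l l) (s1 l l)) (s0 (s1 l l) (s1 l l))) (s1 (s0 (s1 l l) (s1 l l)) (s0 (s1 l l) (s1 l l)))) (s0 (s1 l l) (s1 l l))))
    (Bx.mk 281475013181440 5210112 281475216572416 4456448 281474976710656 0 281474976710656 0) = true := by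
  decide +kernel

open Tr in
theorem tc156 : chk TKCP [] (s0 (s0 (s1 (s0 (s1 (s0 (s1 l l) (s1 l l)) (s0 (s1 l l) (s1 l l))) (s1 (s0 (s1 l l) (s1 l l)) (s0 (s1 l l) (s1 l l)))) (s0 (s1 l l) (s1 l l))) (s1 (s0 (s1 (s0 (s1 l l) (s1 l l)) (s0 l l)) (s1 (s0 (s1 l l) (s1 l l)) l)) (s0 (s1 l l) l))) (s0 (s1 (s0 (s1 (s0 (s1 l l) (s1 l l)) l) (s1 (s0 (s1 l l) (s1 l l)) l)) l) (s1 (s0 (s1 (s0 (s1 l l) (s1 l l)) l) (s1 (s0 (s1 l l) (s1 l l)) l)) l)))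
    (Bx.mk 281475028811776 10420224 281475216572416 4456448 281474976710656 0 281474976710656 0) = true := by
  decide +kernel

end SF

end Vale.Agent.Lib.P154
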