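import Vale.Agent.Lib.P154.SF.Prog

/-! Generated certificates. -/

namespace Vale.Agent.Lib.P154

namespace SF

open Tr in
theorem tc157 : chk TKCP [] (s0 (s1 (s0 (s1 (s0 (s1 (s0 l (s1 l l)) l) (s1 (s0 (s1 l l) (s1 l l)) l)) l) (s1 (s0 (s1 (s0 (s1 l l) (s1 l l)) l) (s1 (s0 (s1 l l) (s1 l l)) l)) l)) l) (s1 (s0 (s1 (s0 (s1 (s0 (s1 l l) (s1 l l)) l) (s1 (s0 (s1 l l) (s1 l l)) l)) l) (s1 (s0 (s1 (s0 (s1 l l) (s1 l l)) l) (s1 (s0 (s1 l l) (s1 l l)) l)) l)) l))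
    (Bx.mk 281475044442112 5210112 281475216572416 4456448 281474976710656 0 281474976710656 0) = true := by
  decide +kernel

open Tr in
theorem tc158 : chk TKCP [] (s0 (s1 (s0 (s1 (s0 (s1 (s0 (s1 l l) (s1 l l)) l) (s1 (s0 (s1 l l) (s1 l l)) l)) l) (s1 (s0 (s1 (s0 (s1 l l) (s1 l l)) l) (s1 (s0 (s1 l l) (s1 l l)) l)) l)) l) (s1 (s0 (s1 (s0 (s1 (s0 (s1 l l) (s1 l l)) l) (s1 (s0 (s1 l l) (s1 l l)) l)) l) (s1 (s0 (s1 (s0 (s1 l l) (s1 l l)) l) (s1 (s0 (s1 l l) (s1 l l)) l)) l)) l))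
    (Bx.mk 281475054862336 5210112 281475216572416 4456448 281474976710656 0 281474976710656 0) = true := by
  decide +kernel

open Tr in
theorem tc159 : chk TKCP [] (s0 (s1 (s0 (s1 (s0 (s1 (s0 (s1 l l) (s1 l l)) l) (s1 (s0 (s1 l l) (s1 l l)) l)) l) (s1 (s0 (s1 (s0 (s1 l l) (s1 l l)) l) (s1 (s0 (s1 l l) (s1 l l)) l)) l)) l) (s1 (s0 (s1 (s0 (s1 (s0 (s1 l l) (s1 l l)) l) (s1 (s0 (s1 l l) (s1 l l)) l)) l) (s1 (s0 (s1 (s0 (s1 l l) (s1 l l)) l) (s1 (s0 (s1 l l) (s1 l l)) l)) l)) l))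
    (Bx.mk 281475065282560 5210112 281475216572416 4456448 281474976710656 0 281474976710656 0) = true := by
  decide +kernel

open Tr in
theorem tc160 : chk TKCP [] (s0 (s1 (s0 (s1 (s0 (s1 (s0 (s1 l l) (s1 l l)) l) (s1 (s0 (s1 l l) (s1 l l)) l)) l) (s1 (s0 (s1 (s0 (s1 l l) (s1 l l)) l) (s1 (s0 (s1 l l) (s1 l l)) l)) l)) l) (s1 (s0 (s1 (s0 (s1 (s0 (s1 l l) (s1 l l)) l) (s1 (s0 (s1 l l) (s1 l l)) l)) l) (s1 (s0 (s1 (s0 (s1 l l) (s1 l l)) l) (s1 (s0 l l) l)) l)) l))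
    (Bx.mk 281475075702784 5210112 281475216572416 4456448 281474976710656 0 281474976710656 0) = true := by
  decide +kernel

open Tr in
theorem tc161 : chk TKCP [] (s0 (s0 (s1 (s0 (s1 (s0 (s1 l l) (s1 l l)) l) (s1 (s0 (s1 l l) (s1 l l)) l)) l) (s1 (s0 (s1 (s0 (s1 l l) (s1 l l)) l) (s1 (s0 (s1 l l) (s1 l l)) l)) l)) (s0 (s1 (s0 (s1 (s0 (s1 l l) (s1 l l)) l) (s1 (s0 (s1 l l) (s1 l l)) l)) l) (s1 (s0 (s1 (s0 (s1 l l) (s1 l l)) l) (s1 (s0 (s1 l l) (s1 l l)) l)) l)))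
    (Bx.mk 281475091333120 10420224 281475216572416 4456448 281474976710656 0 281474976710656 0) = true := by
  decide +kernel

open Tr in
theorem tc162 : chk TKCP [] (s0 (s0 (s0 (s1 (s0 (s1 (s0 (s1 l l) (s1 l l)) l) (s1 (s0 (s1 l l) l) l)) l) (s1 (s0 (s1 (s0 l l) l) (s1 l l)) l)) (s0 (s1 (s0 (s1 l l) (s1 l l)) l) (s1 (s0 (s1 l l) (s1 l l)) l))) (s0 (s0 (s1 (s0 (s1 l l) (s1 l l)) l) (s1 (s0 (s1 l l) (s1 l l)) l)) (s0 (s1 (s0 (s1 l l) (s1 l l)) l) (s1 (s0 (s1 l l) (s1 l l)) l))))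
    (Bx.mk 281475122593792 20840448 281475216572416 4456448 281474976710656 0 281474976710656 0) = true := by
  decide +kernel

end SF

end Vale.Agent.Lib.P154
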